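import Vale.Agent.P162.KL.Assemble

/-!
P162 : `assemble` with a general real window `r`, a general comparison constant `kap` and a general
final constant `c` (`kap * log (1/r) < c * log 2`).
-/

namespace Vale.Agent.P162.KL

theorem assemble_gen (r K kap c : ℝ) (hr0 : 0 < r) (hr1 : r ≤ 1 / 2) (hK : 0 ≤ K)
    (hkap : 1 ≤ kap) (hc : kap * Real.log (1 / r) < c * Real.log 2)
    (PZ PT : ℕ → ℝ → Prop)
    (monoZ : ∀ M e e', PZ M e → e ≤ e' → PZ M e')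
    (closedZ : ∀ M e, (∀ e', e < e' → PZ M e') → PZ M e)
    (monoT : ∀ M e e', PT M e → e ≤ e' → PT M e')
    (closedT : ∀ M e, (∀ e', e < e' → PT M e') → PT M e)
    (trivZ : ∀ M, PZ M 1) (trivT : ∀ M, PT M (1 / 2))
    (M1 : ℕ) (hKM : K < M1)
    (stepZ : ∀ M : ℕ, M1 ≤ M → ∀ g : ℝ, 0 ≤ g →
      (∀ n : ℕ, r * M ≤ n → (n : ℝ) ≤ (1 - r) * M → PZ n g) →
        PZ M ((1 + K / M) * (g + K / M) / (1 - K / M + g)))
    (stepT : ∀ M : ℕ, M1 ≤ M → ∀ zt sg : ℝ, 0 ≤ zt → 0 ≤ sg → PZ M zt →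
      (∀ n : ℕ, r * M ≤ n → (n : ℝ) ≤ (1 - r) * M → PT n sg) →
        PT M ((kap * zt + sg + K / M) / 2)) :
    ∃ j0 : ℕ, ∀ j : ℕ, j0 ≤ j → PT (2 ^ j) (c / ((j : ℝ) + 1)) := by
  obtain ⟨z, hz⟩ : ∃ z : ℕ → ℝ, z = fun M => bestOf (PZ M) := ⟨_, rfl⟩
  obtain ⟨s, hs⟩ : ∃ s : ℕ → ℝ, s = fun M => bestOf (PT M) := ⟨_, rfl⟩
  have hz0 : ∀ M, 0 ≤ z M := fun M => by
    rw [hz]; exact bestOf_nonneg (PZ M) 1 zero_le_one (trivZ M)
  have hz1 : ∀ M, z M ≤ 1 := fun M => by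
    rw [hz]; exact bestOf_le (PZ M) 1 zero_le_one (trivZ M)
  have hzP : ∀ M, PZ M (z M) := fun M => by
    rw [hz]; exact bestOf_spec (PZ M) (monoZ M) (closedZ M) 1 zero_le_one (trivZ M)
  have hs0 : ∀ M, 0 ≤ s M := fun M => by
    rw [hs]; exact bestOf_nonneg (PT M) (1 / 2) (by norm_num) (trivT M)
  have hs1 : ∀ M, s M ≤ 1 / 2 := fun M => by
    rw [hs]; exact bestOf_le (PT M) (1 / 2) (by norm_num) (trivT M)
  have hsP : ∀ M, PT M (s M) := fun M => by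
    rw [hs]; exact bestOf_spec (PT M) (monoT M) (closedT M) (1 / 2) (by norm_num) (trivT M)
  have hzle : ∀ M c, 0 ≤ c → PZ M c → z M ≤ c := fun M c hc0 hc => by
    rw [hz]; exact bestOf_le (PZ M) c hc0 hc
  have hsle : ∀ M c, 0 ≤ c → PT M c → s M ≤ c := fun M c hc0 hc => by
    rw [hs]; exact bestOf_le (PT M) c hc0 hc
  have hZ : ∀ M : ℕ, M1 ≤ M → ∀ g : ℝ, 0 ≤ g →
      (∀ n : ℕ, r * M ≤ n → (n : ℝ) ≤ (1 - r) * M → z n ≤ g) →
      z M * (1 - K / M + g) ≤ (1 + K / M) * (g + K / M) := by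
    intro M hM g hg hwin
    have hM1R : (M1 : ℝ) ≤ M := by exact_mod_cast hM
    have hMpos : (0 : ℝ) < M := by linarith
    have he0 : 0 ≤ K / M := by positivity
    have he1 : K / M < 1 := by rw [div_lt_one hMpos]; linarith
    have hden : 0 < 1 - K / M + g := by linarith
    have h1 := stepZ M hM g hg (fun n h1 h2 => monoZ n _ _ (hzP n) (hwin n h1 h2))
    have h2 := hzle M _ (by positivity) h1
    rwa [le_div_iff₀ hden] at h2
  have hT : ∀ M : ℕ, M1 ≤ M → ∀ sg : ℝ, 0 ≤ sg →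
      (∀ n : ℕ, r * M ≤ n → (n : ℝ) ≤ (1 - r) * M → s n ≤ sg) →
      2 * s M ≤ kap * z M + sg + K / M := by
    intro M hM sg hsg hwin
    have hM1R : (M1 : ℝ) ≤ M := by exact_mod_cast hM
    have hMpos : (0 : ℝ) < M := by linarith
    have he0 : 0 ≤ K / M := by positivity
    have h1 := stepT M hM (z M) sg (hz0 M) hsg (hzP M)
      (fun n h1 h2 => monoT n _ _ (hsP n) (hwin n h1 h2))
    have h2 := hsle M _ (by have := hz0 M; positivity) h1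
    linarith
  obtain ⟨j0, _, hj0⟩ := Vale.Agent.P162.harmonic_main r K kap c M1 hr0 hr1 hK hkap z s hz0 hz1
    hs0 hs1 hZ hT hc
  refine ⟨j0, fun j hj => monoT _ _ _ (hsP (2 ^ j)) ?_⟩
  have := hj0 (j + 1) (by omega)
  simpa using this

end Vale.Agent.P162.KL
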